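import Crest.Agent.N41.Local.Defs
import Crest.Agent.N41.ES.Defs
import Crest.Agent.N41.Exp.Basic

/-!
# Row 41 (S0055, S0056): frozen definitions and module statements

Power saving for sets without differences `h(n)` (`n` a positive integer, or a prime).
Route: a reflection positive law on `V^Om`, `Om = (ZMod 6)^D`, which forces one arc up to a
summable probability; chessboard estimate; truncated models on `G = ∏ ZMod p`; circle method for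
one pair of points.  Every module is a `Prop` below; `MainStmt` is derived from them.
-/

set_option autoImplicit false

namespace Crest.Agent.N41

open Finset Polynomial
open scoped BigOperators
open Local (Om ptA ptB RP tens)
open ES (avg es proj res qq red lift)

/-! ## Part A: local laws (torus, mirrors, `RP`, `Lam`, `tens`: `N41/Local/Defs.lean`) -/

section LocalLaw

variable {D : ℕ} {V : Type} [AddCommGroup V] [Fintype V]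

/-- the convolution kernel `κ` has norm at most `ρ` on functions of mean zero -/
def OpBd (κ : V → ℝ) (ρ : ℝ) : Prop :=
  ∀ u v : V → ℝ, ∑ s, u s = 0 →
    (𝔼 s, 𝔼 t, u s * v t * κ (t - s)) ^ 2 ≤ ρ ^ 2 * (𝔼 s, u s ^ 2) * 𝔼 t, v t ^ 2

/-- a reflection positive, translation invariant probability mass function on `V^Om` in which every
point has maximal correlation at most `ρ` with the other points -/
structure Law (ν : (Om D → V) → ℝ) (ρ : ℝ) : Prop where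
  nonneg : ∀ x, 0 ≤ ν x
  sum_one : ∑ x, ν x = 1
  transl : ∀ (x : Om D → V) (c : V), ν (fun ω => x ω + c) = ν x
  rp : RP ν
  maxcorr : ∀ (ω : Om D) (g : V → ℝ) (G : (Om D → V) → ℝ), ∑ v, g v = 0 →
    (∀ x v, G (Function.update x ω v) = G x) →
    (∑ x, ν x * (g (x ω) * G x)) ^ 2 ≤ ρ ^ 2 * (𝔼 v, g v ^ 2) * ∑ x, ν x * G x ^ 2

/-- `nf ≤ ν` is the part of `ν` in which the arc `ptA → ptB` is present: its pair law is a multiple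
of `κ (x ptB - x ptA)`; the rest has mass at most `β` -/
structure Split (ν nf : (Om D → V) → ℝ) (κ : V → ℝ) (ρ β : ℝ) : Prop where
  nf_nonneg : ∀ x, 0 ≤ nf x
  nf_le : ∀ x, nf x ≤ ν x
  fail_le : ∑ x, (ν x - nf x) ≤ β
  pair : ∃ m : ℝ, 0 ≤ m ∧ m ≤ 1 ∧ ∀ u v : V → ℝ,
    ∑ x, nf x * (u (x (ptA D)) * v (x (ptB D))) = m * 𝔼 s, 𝔼 t, u s * v t * κ (t - s)
  kap_nonneg : ∀ t, 0 ≤ κ t
  kap_mean : 𝔼 t, κ t = 1
  op : OpBd κ ρ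

/-- a law which forces the arc with kernel `k₀` -/
def Valid (ν : (Om D → V) → ℝ) (k₀ : V → ℝ) (C ρ β : ℝ) : Prop :=
  Law ν ρ ∧ ∃ (nf : (Om D → V) → ℝ) (ψ : V → ℝ),
    Split ν nf (fun t => k₀ t * ψ t) ρ β ∧ ∀ t, 0 ≤ ψ t ∧ ψ t ≤ C

end LocalLaw

/-- **Module A** (local law; a wrapper of `Local.LocalLawStmt`). -/
def LocalStmt : Prop :=
  ∀ (D : ℕ) (K : ℝ), 1 ≤ D → 1 ≤ K → ∃ C σ₀ : ℝ, 1 ≤ C ∧ 0 < σ₀ ∧
    ∀ (V : Type) [AddCommGroup V] [Fintype V] (k₀ : V → ℝ) (σ : ℝ),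
      (∀ t, 0 ≤ k₀ t) → (∀ t, k₀ t ≤ K) → 𝔼 t, k₀ t = 1 → OpBd k₀ σ → 0 ≤ σ → σ ≤ σ₀ →
      ∃ ν : (Om D → V) → ℝ, Valid ν k₀ C (C * √σ) (C * σ ^ D)

/-- **Module A'** (validity is preserved by automorphisms of the group). -/
def TransportStmt : Prop :=
  ∀ (D : ℕ) (V : Type) [AddCommGroup V] [Fintype V] (ν : (Om D → V) → ℝ) (k₀ : V → ℝ)
    (C ρ β : ℝ) (e : V ≃+ V), Valid ν k₀ C ρ β → Valid (fun x => ν (e ∘ x)) (k₀ ∘ e) C ρ β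

/-! ## Part B: the product model (`avg`, `es`, `proj`, `res`, `qq`, `red`, `lift`: `N41/ES/Defs.lean`) -/

section Model

variable {ι : Type} [Fintype ι] [DecidableEq ι] {V : ι → Type} [∀ i, Fintype (V i)]

/-- indicator of `x = s` on the coordinates in `S` -/
noncomputable def ind [∀ i, DecidableEq (V i)] (S : Finset ι) (s x : ∀ i, V i) : ℝ :=
  if ∀ i ∈ S, x i = s i then 1 else 0

/-- the sets of coordinates outside `S` of conductor at most `y` -/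
noncomputable def low (q : ι → ℕ) (S : Finset ι) (y : ℝ) : Finset (Finset ι) :=
  univ.filter fun T => Disjoint T S ∧ (qq q T : ℝ) ≤ y

/-- the multilinear functional of the product law -/
abbrev Lam {D : ℕ} (ν : ∀ i, (Om D → V i) → ℝ) (g : Om D → (∀ i, V i) → ℝ) : ℝ :=
  Local.Lam (tens ν) g

/-- `f` behaves like a bounded function up to conductor `y`: bounded conditional expectations and
Bessel's inequality on all fibres -/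
structure Glob (q : ι → ℕ) (y : ℝ) (f : (∀ i, V i) → ℝ) : Prop where
  bdd : ∀ U : Finset ι, (qq q U : ℝ) ≤ y → ∀ x, |avg Uᶜ f x| ≤ 4
  bes : ∀ (U : Finset ι) (s : ∀ i, V i) (F : Finset (Finset ι)), (qq q U : ℝ) ≤ y →
    (∀ T ∈ F, Disjoint T U ∧ (qq q T : ℝ) ≤ y) → 𝔼 x, proj F (res U s f) x ^ 2 ≤ 4

end Model

/-- **Module B1** (chessboard estimate for the product law). -/
def ChessStmt : Prop :=
  ∀ (D : ℕ) (ι : Type) [Fintype ι] [DecidableEq ι] (V : ι → Type) [∀ i, AddCommGroup (V i)]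
    [∀ i, Fintype (V i)] (ν : ∀ i, (Om D → V i) → ℝ) (ρ : ι → ℝ), 1 ≤ D →
    (∀ i, Law (ν i) (ρ i)) →
    (∀ g : (∀ i, V i) → ℝ, 0 ≤ Lam ν fun _ => g) ∧
    ∀ (g : Om D → (∀ i, V i) → ℝ) (B : Om D → ℝ), (∀ ω, 0 < B ω) →
      (∀ ω, (Lam ν fun _ => g ω) ≤ B ω ^ 6 ^ D) → |Lam ν g| ≤ ∏ ω, B ω

/-- **Module B3** (moments of truncated models). -/
def HCStmt : Prop :=
  ∀ l : ℕ, ∃ C : ℝ, 1 ≤ C ∧ ∀ (ι : Type) [Fintype ι] [DecidableEq ι] (V : ι → Type)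
    [∀ i, Fintype (V i)] [∀ i, Nonempty (V i)] (q : ι → ℕ) (y : ℝ) (f : (∀ i, V i) → ℝ)
    (U : Finset ι) (s : ∀ i, V i) (F : Finset (Finset ι)) (d : ℕ),
    (∀ i, 1 ≤ q i) → Glob q (y ^ 2) f → (qq q U : ℝ) ≤ y →
    (∀ T ∈ F, Disjoint T U ∧ (qq q T : ℝ) ≤ y ∧ T.card ≤ d) →
    𝔼 x, proj F (res U s f) x ^ (2 * l) ≤ C ^ (d + 1)

/-- **Module B4** (tail bound: tensorised maximal correlation and Hoelder's inequality). -/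
def TailStmt : Prop :=
  ∀ (D : ℕ) (ι : Type) [Fintype ι] [DecidableEq ι] (V : ι → Type) [∀ i, AddCommGroup (V i)]
    [∀ i, Fintype (V i)] (ν : ∀ i, (Om D → V i) → ℝ) (ρ : ι → ℝ), 1 ≤ D →
    (∀ i, Law (ν i) (ρ i)) →
    ∀ (ω₀ : Om D) (g : Om D → (∀ i, V i) → ℝ) (f : (∀ i, V i) → ℝ) (F : Finset (Finset ι))
      (η B : ℝ), g ω₀ = proj F f → 0 ≤ η → (∀ T ∈ F, ∏ i ∈ T, ρ i ^ 2 ≤ η ^ 2) → 1 ≤ B →
      (∀ ω, 𝔼 x, g ω x ^ (2 * 6 ^ D) ≤ B) → |Lam ν g| ≤ η * B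

/-- **Module B5** (the step in the model).  `crude`: a priori bound.  `step`: if the truncated
models of all fibres are small and the pair correlation with the kernel is small, then the
functional of the tuple is at most half the bound. -/
def StepStmt : Prop :=
  ∀ (D : ℕ) (κ : ℝ), 1 ≤ D → 0 < κ → ∃ (K K' : ℕ) (κ' p₀ Z₀ : ℝ), 1 ≤ K ∧ 0 < κ' ∧ 2 ≤ Z₀ ∧
    ∀ (ι : Type) [Fintype ι] [DecidableEq ι] (V : ι → Type) [∀ i, AddCommGroup (V i)]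
      [∀ i, Fintype (V i)] [∀ i, DecidableEq (V i)] (q : ι → ℕ) (ρ β : ι → ℝ)
      (ν nf : ∀ i, (Om D → V i) → ℝ) (kap : ∀ i, V i → ℝ) (Z : ℝ),
      Z₀ ≤ Z → (∀ i, p₀ ≤ q i) → Function.Injective (qq q) → (∀ i, Fintype.card (V i) ≤ q i) →
      (∀ i, Law (ν i) (ρ i)) → (∀ i, 0 ≤ ρ i ∧ ρ i ≤ (q i : ℝ) ^ (-κ)) →
      (∀ f : (∀ i, V i) → ℝ, Glob q (Z ^ K') f →
        (Lam ν fun _ => proj (low q ∅ (Z ^ 2)) f) ≤ Z ^ (κ' / 2)) ∧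
      ((∀ i, Split (ν i) (nf i) (kap i) (ρ i) (β i)) → (∀ i, β i ≤ 1 / (q i : ℝ) ^ 2) →
        ∀ (f : Om D → (∀ i, V i) → ℝ) (Y : ℝ), (∀ ω, Glob q (Z ^ K') (f ω)) → Z ^ (-κ') ≤ Y →
        (∀ (ω : Om D) (S U : Finset ι) (s : ∀ i, V i), S.Nonempty → U ⊆ S → (qq q S : ℝ) ≤ Z →
          (Lam ν fun _ => proj (low q S (Z ^ 2)) (res U s (f ω))) ≤ Y * √(qq q S)) →
        (∀ (T : Finset ι) (sa sb : ∀ i, V i), (qq q T : ℝ) ≤ Z ^ (2 * 6 ^ D) →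
          |𝔼 x, 𝔼 y, (f (ptA D) x * ind T sa x) * (f (ptB D) y * ind T sb y) *
            proj (low q ∅ (Z ^ K)) (fun z => ∏ i, kap i (z i)) (y - x)| ≤ (Z ^ K) ^ (-κ)) →
        |Lam ν fun ω => proj (low q ∅ (Z ^ 2)) (f ω)| ≤ Y / 2)

/-- `A` lies in the real interval `[x₀, x₀ + L)` -/
def InI (A : Finset ℤ) (x₀ L : ℝ) : Prop := ∀ a ∈ A, x₀ ≤ (a : ℝ) ∧ (a : ℝ) < x₀ + L

/-- **Module B2** (lifts of subsets of long progressions are global). -/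
def LiftStmt : Prop :=
  ∀ (ι : Type) [Fintype ι] [DecidableEq ι] (q : ι → ℕ) [∀ i, NeZero (q i)],
    (∀ i, (q i).Prime) → Function.Injective q →
    ∀ (A : Finset ℤ) (x₀ ℓ y : ℝ) (W : ℕ) (s : ℤ), 1 ≤ W → (∀ i, Nat.Coprime W (q i)) →
      InI A x₀ ℓ → (∀ a ∈ A, a ≡ s [ZMOD W]) → 2 ≤ y → y ^ 5 * W ≤ ℓ →
      Glob q y (lift q A (ℓ / W))

/-! ## Part C: polynomials -/

/-- `g` has a root modulo every `m` (with `r + d n` a unit in the prime case) -/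
def Root (pr : Bool) (r d : ℕ) (g : ℤ[X]) : Prop :=
  ∀ m : ℕ, 1 ≤ m → ∃ n : ℤ, (m : ℤ) ∣ g.eval n ∧
    (pr = true → IsCoprime ((r : ℤ) + d * n) ((m : ℤ) * d))

/-- no two distinct elements of `A` differ by an admissible value of `g` -/
def Free (pr : Bool) (r d : ℕ) (g : ℤ[X]) (A : Finset ℤ) : Prop :=
  ∀ a ∈ A, ∀ b ∈ A, ∀ n : ℕ, 1 ≤ n → (pr = true → (r + d * n).Prime) →
    a - b = g.eval (n : ℤ) → a = b

/-- **Module C1** (passing to a progression of roots). -/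
def RefineStmt : Prop :=
  ∀ (pr : Bool) (r d m : ℕ) (g : ℤ[X]), g ≠ 0 → 1 ≤ d → 1 ≤ m → Root pr r d g →
    ∃ (ρ μ : ℕ) (g' : ℤ[X]), ρ < m ∧ 1 ≤ μ ∧ m ∣ μ ∧ μ ∣ g.content.natAbs * m ^ g.natDegree ∧
      C (μ : ℤ) * g' = g.comp (C (ρ : ℤ) + C (m : ℤ) * X) ∧ g'.IsPrimitive ∧
      Root pr (r + d * ρ) (d * m) g'

/-- **Module C2** (small primes: a progression on which `g` is linear modulo every `p ≤ p₀`). -/
def SmallStmt : Prop :=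
  ∀ k p₀ : ℕ, ∃ W : ℕ, 1 ≤ W ∧ ∀ (pr : Bool) (r d : ℕ) (g : ℤ[X]), g.natDegree ≤ k → 1 ≤ d →
    g.IsPrimitive → Root pr r d g →
    ∃ (n₀ W₁ W₂ : ℕ) (P : ℤ[X]), n₀ < W₁ ∧ W₁ ≤ W ∧ 1 ≤ W₂ ∧ W₂ ≤ W ∧
      g.comp (C (n₀ : ℤ) + C (W₁ : ℤ) * X) = C (g.eval (n₀ : ℤ)) + C (W₂ : ℤ) * P ∧
      (∀ p : ℕ, p.Prime → p ∣ W₁ * W₂ → p ≤ p₀) ∧
      (∀ p : ℕ, p.Prime → p ≤ p₀ →
        p ∣ W₁ ∧ ¬ (p : ℤ) ∣ P.coeff 1 ∧ ∀ j, 2 ≤ j → (p : ℤ) ∣ P.coeff j) ∧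
      (pr = true → Nat.Coprime (r + d * n₀) (d * W₁))

/-- value of an integer polynomial at a residue class -/
noncomputable def evz (p : ℕ) (g : ℤ[X]) (n : ZMod p) : ZMod p :=
  (g.map (Int.castRingHom (ZMod p))).eval n

/-- the image of a weight on `ZMod p` under `g` -/
noncomputable def push (p : ℕ) [NeZero p] (g : ℤ[X]) (π : ZMod p → ℝ) (t : ZMod p) : ℝ :=
  ∑ n ∈ univ.filter fun n => evz p g n = t, π n

/-- the admissible residues: `g'(n) ≠ 0`, and `r + d n ≠ 0` in the prime case -/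
noncomputable def adm (pr : Bool) (p : ℕ) [NeZero p] (r d : ℕ) (g : ℤ[X]) : Finset (ZMod p) :=
  univ.filter fun n => evz p (derivative g) n ≠ 0 ∧ (pr = true → (r : ZMod p) + d * n ≠ 0)

/-- the uniform density on the admissible residues -/
noncomputable def wadm (pr : Bool) (p : ℕ) [NeZero p] (r d : ℕ) (g : ℤ[X]) (n : ZMod p) : ℝ :=
  if n ∈ adm pr p r d g then (p : ℝ) / (adm pr p r d g).card else 0

/-- the local kernel: density of `g(n)`, `n` uniform on the admissible residues -/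
noncomputable def ker (pr : Bool) (p : ℕ) [NeZero p] (r d : ℕ) (g : ℤ[X]) : ZMod p → ℝ :=
  push p g (wadm pr p r d g)

/-- **Module C3a** (complete exponential sums modulo a prime, by Weyl differencing). -/
def CompleteStmt : Prop :=
  ∀ k : ℕ, ∃ (δ : ℝ) (p₀ : ℕ), 0 < δ ∧ ∀ (p : ℕ) (g : ℤ[X]) (a : ℤ), p.Prime → p₀ < p →
    g.natDegree ≤ k → (∃ j, 1 ≤ j ∧ ¬ (p : ℤ) ∣ g.coeff j) → ¬ (p : ℤ) ∣ a →
    ‖∑ n ∈ range p, Exp.e (((a * g.eval (n : ℤ) : ℤ) : ℝ) / p)‖ ≤ (p : ℝ) ^ (1 - δ)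

/-- **Module C3b** (the local kernels; from `CompleteStmt`). -/
def LocalExpStmt : Prop :=
  ∀ k : ℕ, ∃ (δ : ℝ) (p₀ : ℕ), 0 < δ ∧ ∀ (pr : Bool) (p : ℕ) [NeZero p] (r d : ℕ) (g : ℤ[X]),
    p.Prime → p₀ < p → g.natDegree ≤ k → (∃ j, 1 ≤ j ∧ ¬ (p : ℤ) ∣ g.coeff j) →
    (pr = true → Nat.Coprime r d) →
    (∀ n, wadm pr p r d g n ≤ 2) ∧ (∀ t, ker pr p r d g t ≤ 2 * k) ∧
      𝔼 t, ker pr p r d g t = 1 ∧ OpBd (ker pr p r d g) ((p : ℝ) ^ (-δ))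

/-- forward difference of a polynomial at a natural number -/
noncomputable def dP (P : ℤ[X]) (m : ℕ) : ℤ := P.eval ((m : ℤ) + 1) - P.eval (m : ℤ)

/-- the archimedean hypotheses of the pair lemma -/
structure Arch (k : ℕ) (P : ℤ[X]) (X₁ X₂ : ℕ) (L Z : ℝ) : Prop where
  one_le : 1 ≤ X₁
  le : X₁ ≤ X₂
  mono : ∀ m, X₁ ≤ m → m ≤ X₂ → 0 < dP P m ∧ dP P m ≤ dP P (m + 1)
  step : (X₂ : ℝ) * (dP P X₂ : ℝ) ≤ Z * L
  range : ((P.eval (X₂ : ℤ) - P.eval (X₁ : ℤ) : ℤ) : ℝ) ≤ 4 * L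
  big : L ≤ Z * (X₂ : ℝ) ^ k
  small : (X₂ : ℝ) ≤ L
  lead : (P.leadingCoeff : ℝ) ≤ Z

/-- **Module C4** (the range of the variable). -/
def ArchStmt : Prop :=
  ∀ (h : ℤ[X]), 2 ≤ h.natDegree → 0 < h.leadingCoeff → ∃ C N₀ : ℝ, 1 ≤ C ∧
    ∀ (N ℓ : ℝ) (r d lam : ℕ) (P : ℤ[X]), N₀ ≤ N → r < d → 1 ≤ lam →
      (d : ℝ) ≤ N ^ (1 / (4 * h.natDegree) : ℝ) → (lam : ℝ) ≤ N ^ (1 / (4 * h.natDegree) : ℝ) →
      N ^ (1 - 1 / (4 * h.natDegree) : ℝ) ≤ ℓ → ℓ ≤ N →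
      Polynomial.C (lam : ℤ) * P =
        h.comp (Polynomial.C (r : ℤ) + Polynomial.C (d : ℤ) * X) - Polynomial.C (h.eval (r : ℤ)) →
      ∃ X₁ X₂ : ℕ, Arch h.natDegree P X₁ X₂ (ℓ / (3 * lam)) (C * (d : ℝ) ^ h.natDegree) ∧
        N ^ (1 / (2 * h.natDegree) : ℝ) ≤ X₂ ∧
        ∀ t : ℤ, ℓ / 3 ≤ ((lam * t + h.eval (r : ℤ) : ℤ) : ℝ) →
          ((lam * t + h.eval (r : ℤ) : ℤ) : ℝ) ≤ ℓ →
          P.eval (X₁ : ℤ) ≤ t ∧ t < P.eval (X₂ : ℤ)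

/-! ## Part D: the circle method -/

/-- the weight of the variable: `1`, or the von Mangoldt function -/
noncomputable def wt (pr : Bool) (n : ℕ) : ℝ :=
  if pr = true then ArithmeticFunction.vonMangoldt n else 1

/-- **Module D1** (Weyl's inequality in inverse form; Vaughan's identity in the prime case). -/
def WeylStmt (pr : Bool) : Prop :=
  ∀ k : ℕ, 2 ≤ k → ∃ C : ℕ, ∀ (Q : ℝ[X]) (a b m ρ : ℕ) (X δ : ℝ), Q.natDegree ≤ k → 1 ≤ m →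
    0 < δ → δ ≤ 1 / 2 → 1 ≤ X → (b : ℝ) ≤ X → δ * Real.log X ≤ 1 →
    δ * X ≤ ‖∑ n ∈ (Ioc a b).filter fun n => n ≡ ρ [MOD m], (wt pr n : ℂ) * Exp.e (Q.eval (n : ℝ))‖ →
    ∃ (q : ℕ) (z : ℤ), 1 ≤ q ∧ (q : ℝ) ≤ (1 / δ) ^ C ∧
      |(q : ℝ) * Q.coeff k - z| ≤ (1 / δ) ^ C / X ^ k

/-- **Module D2** (primes in progressions with a power saving). -/
def PsiAP : Prop :=
  ∃ δ C : ℝ, 0 < δ ∧ 0 < C ∧ ∀ (m a y : ℕ), 1 ≤ m → Nat.Coprime a m →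
    |∑ n ∈ (Ioc 0 y).filter fun n => n ≡ a [MOD m], ArithmeticFunction.vonMangoldt n -
      (y : ℝ) / (m.totient : ℝ)| ≤ C * (y : ℝ) ^ (1 - δ) * Real.log (2 * m)

/-- **Module D3** (pair lemma): if no element of `B` minus an element of `A` is an admissible value
of `P`, the truncated model kernel has a small sum over `B - A`. -/
def PairStmt (pr : Bool) : Prop :=
  ∀ (k : ℕ) (κ Cπ : ℝ), 2 ≤ k → 0 < κ → 1 ≤ Cπ →
    ∃ (p₀ C₁ : ℕ) (κ₂ D₀ : ℝ), 1 ≤ C₁ ∧ 0 < κ₂ ∧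
    ∀ (ι : Type) [Fintype ι] [DecidableEq ι] (q : ι → ℕ) [∀ i, NeZero (q i)] (P : ℤ[X])
      (r d X₁ X₂ : ℕ) (L Z y xa xb : ℝ) (π : ∀ i, ZMod (q i) → ℝ) (A B : Finset ℤ),
      (∀ i, (q i).Prime) → Function.Injective q → (∀ i, p₀ < q i) →
      P.natDegree = k → 0 < P.leadingCoeff → Arch k P X₁ X₂ L Z →
      r < d → (d : ℝ) ≤ Z → (pr = true → Nat.Coprime r d) →
      D₀ ≤ y → y ≤ Z → Z ^ C₁ ≤ X₂ → Real.log L ≤ Z →
      (∀ p : ℕ, p.Prime → (p : ℝ) ≤ Z ^ C₁ → p ∉ Set.range q →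
        ¬ (p : ℤ) ∣ P.coeff 1 ∧ (∀ j, 2 ≤ j → (p : ℤ) ∣ P.coeff j) ∧ (pr = true → p ∣ d)) →
      (∀ i, ∃ j, 1 ≤ j ∧ ¬ (q i : ℤ) ∣ P.coeff j) →
      (∀ i n, 0 ≤ π i n ∧ π i n ≤ Cπ) → (∀ i, 𝔼 n, π i n = 1) →
      (∀ i n, π i n ≠ 0 → n ∈ adm pr (q i) r d P) →
      (∀ i, OpBd (push (q i) P (π i)) ((q i : ℝ) ^ (-κ))) →
      InI A xa L → InI B xb L →
      (∀ a ∈ A, ∀ b ∈ B, P.eval (X₁ : ℤ) ≤ b - a ∧ b - a < P.eval (X₂ : ℤ)) →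
      (∀ a ∈ A, ∀ b ∈ B, ∀ m : ℕ, X₁ ≤ m → m < X₂ → (pr = true → (r + d * m).Prime) →
        b - a ≠ P.eval (m : ℤ)) →
      |∑ a ∈ A, ∑ b ∈ B, proj (low q ∅ y) (fun z => ∏ i, push (q i) P (π i) (z i))
        (red q (b - a))| ≤ L ^ 2 * y ^ (-κ₂)

/-! ## The theorem -/

/-- both statements of the row (`pr = false`: S0055, `pr = true`: S0056) -/
def MainStmt (pr : Bool) : Prop :=
  ∀ k : ℕ, 2 ≤ k → ∃ c : ℝ, 0 < c ∧ c < 1 ∧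
    ∀ h : ℤ[X], h.natDegree = k → 0 < h.leadingCoeff → Root pr 0 1 h →
      ∃ C : ℝ, 1 ≤ C ∧ ∃ N₀ : ℕ, 1 ≤ N₀ ∧ ∀ N : ℕ, N₀ ≤ N → ∀ A : Finset ℤ,
        (∀ a ∈ A, 1 ≤ a ∧ a ≤ (N : ℤ)) → Free pr 0 1 h A →
        (A.card : ℝ) ≤ C * (N : ℝ) ^ ((1 : ℝ) - c)

end Crest.Agent.N41
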