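import Crest.Agent.N41.Defs

/-!
# Row 41: states of the recursion and the statements of part C
-/

set_option autoImplicit false

namespace Crest.Agent.N41

open Finset Polynomial
open scoped BigOperators
open Local (Om ptA ptB RP tens)
open ES (avg es proj res qq red lift)

/-- **Module C3c** (the local kernel is covariant under refinement). -/
def CovStmt : Prop :=
  ∀ (pr : Bool) (p : ℕ) [NeZero p] (r d ρ m μ : ℕ) (g g' : ℤ[X]), p.Prime → ¬ p ∣ m → ¬ p ∣ μ →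
    C (μ : ℤ) * g' = g.comp (C (ρ : ℤ) + C (m : ℤ) * X) →
    ∀ t : ZMod p, ker pr p (r + d * ρ) (d * m) g' t = ker pr p r d g ((μ : ZMod p) * t)

/-- **Module C3d** (a primitive polynomial with roots is not constant modulo any prime). -/
def NonconstStmt : Prop :=
  ∀ (pr : Bool) (r d : ℕ) (g : ℤ[X]), g.IsPrimitive → Root pr r d g →
    (∀ p : ℕ, p.Prime → ∃ j, 1 ≤ j ∧ ¬ (p : ℤ) ∣ g.coeff j) ∧ (pr = true → Nat.Coprime r d)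

/-- a state at scale `t`: `g(n) = h(r + d n) / lam` is primitive and has roots -/
structure St (pr : Bool) (h : ℤ[X]) (t : ℝ) (r d lam : ℕ) (g : ℤ[X]) : Prop where
  r_lt : r < d
  lam_pos : 1 ≤ lam
  d_le : (d : ℝ) ≤ t
  lam_le : (lam : ℝ) ≤ t
  eq : C (lam : ℤ) * g = h.comp (C (r : ℤ) + C (d : ℤ) * X)
  prim : g.IsPrimitive
  root : Root pr r d g

section

variable (pr : Bool) (h : ℤ[X]) (D : ℕ) {ι : Type} [Fintype ι] [DecidableEq ι] (q : ι → ℕ)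
  [∀ i, NeZero (q i)] (Cc : ℝ) (ρ β : ι → ℝ)

/-- valid local laws exist for all states -/
def ExLaw : Prop :=
  ∀ (t : ℝ) (r d lam : ℕ) (g : ℤ[X]), St pr h t r d lam g →
    ∀ i, ∃ ν : (Om D → ZMod (q i)) → ℝ, Valid ν (ker pr (q i) r d g) Cc (ρ i) (β i)

/-- the inductive claim at scale `t` -/
def Bound (N Z t Y : ℝ) : Prop :=
  ∀ (r d lam : ℕ) (g : ℤ[X]) (A : Finset ℤ) (x₀ : ℝ) (ν : ∀ i, (Om D → ZMod (q i)) → ℝ),
    St pr h t r d lam g → InI A x₀ (N / t) → Free pr r d g A →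
    (∀ i, Valid (ν i) (ker pr (q i) r d g) Cc (ρ i) (β i)) →
    (Lam ν fun _ => proj (low q ∅ (Z ^ 2)) (lift q A (N / t))) ≤ Y

end

/-- **Module C5** (descent: the fibres of a third of the interval are controlled by the claim at
larger scales). -/
def DescentStmt : Prop :=
  ∀ (pr : Bool) (h : ℤ[X]) (D : ℕ) (ι : Type) [Fintype ι] [DecidableEq ι] (q : ι → ℕ)
    [∀ i, NeZero (q i)] (Cc : ℝ) (ρ β : ι → ℝ) (N Z t Y : ℝ), 1 ≤ D → 1 ≤ h.natDegree →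
    (∀ i, (q i).Prime) → Function.Injective q → 0 < N → 0 < t → 0 ≤ Y →
    ExLaw pr h D q Cc ρ β →
    ∀ (r d lam : ℕ) (g : ℤ[X]) (A : Finset ℤ) (x₁ : ℝ) (ν : ∀ i, (Om D → ZMod (q i)) → ℝ)
      (W : ℕ) (c : ℤ) (S U : Finset ι) (s : ∀ i, ZMod (q i)),
      St pr h t r d lam g → Free pr r d g A → InI A x₁ (N / (3 * t)) → 1 ≤ W →
      (∀ i, Nat.Coprime W (q i)) → (∀ a ∈ A, a ≡ c [ZMOD W]) →
      (∀ i, Valid (ν i) (ker pr (q i) r d g) Cc (ρ i) (β i)) → U ⊆ S →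
      (∀ t' : ℝ, 3 * t ≤ t' → t' ≤ 3 * ((W * qq q S : ℕ) : ℝ) ^ h.natDegree * t →
        Bound pr h D q Cc ρ β N Z t' Y) →
      (Lam ν fun _ => proj (low q S (Z ^ 2)) (res U s (lift q A (N / (3 * t) / W)))) ≤ Y

/-- **Module C6** (the pair lemma applied to a state). -/
def PairAppStmt (pr : Bool) : Prop :=
  ∀ (k : ℕ) (κ Cc : ℝ), 2 ≤ k → 0 < κ → 1 ≤ Cc →
    ∃ (p₁ C₁ : ℕ) (κ₂ D₀ : ℝ), 1 ≤ C₁ ∧ 0 < κ₂ ∧ ∀ p₀ : ℕ, p₁ ≤ p₀ → ∃ W : ℕ, 1 ≤ W ∧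
    ∀ h : ℤ[X], h.natDegree = k → 0 < h.leadingCoeff → ∃ Ch N₀ : ℝ, 1 ≤ Ch ∧
    ∀ (ι : Type) [Fintype ι] [DecidableEq ι] (q : ι → ℕ) [∀ i, NeZero (q i)] (N Zp y t : ℝ),
      N₀ ≤ N → (∀ i, (q i).Prime) → Function.Injective q → (∀ i, p₀ < q i) →
      (∀ p : ℕ, p.Prime → p₀ < p → (p : ℝ) ≤ Zp ^ C₁ → p ∈ Set.range q) →
      D₀ ≤ y → y ≤ Zp → Zp ^ C₁ ≤ N ^ (1 / (2 * k) : ℝ) → Real.log N ≤ Zp →
      Ch * (t * W) ^ k ≤ Zp → t * W ≤ N ^ (1 / (4 * k) : ℝ) → 1 ≤ t →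
      ∀ (r d lam : ℕ) (g : ℤ[X]), St pr h t r d lam g →
      ∃ (W₂ : ℕ) (c₀ : ℤ), 1 ≤ W₂ ∧ W₂ ≤ W ∧ (∀ i, Nat.Coprime W₂ (q i)) ∧
      ∀ (A Aa Ab : Finset ℤ) (x₀ : ℝ) (ca cb : ℤ) (ψ : ∀ i, ZMod (q i) → ℝ),
        Free pr r d g A → Aa ⊆ A → Ab ⊆ A → InI Aa x₀ (N / (3 * t)) →
        InI Ab (x₀ + 2 * (N / (3 * t))) (N / (3 * t)) →
        (∀ a ∈ Aa, a ≡ ca [ZMOD W₂]) → (∀ b ∈ Ab, b ≡ cb [ZMOD W₂]) →
        cb - ca ≡ c₀ [ZMOD W₂] →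
        (∀ i z, 0 ≤ ψ i z ∧ ψ i z ≤ Cc) → (∀ i, 𝔼 z, ker pr (q i) r d g z * ψ i z = 1) →
        (∀ i, OpBd (fun z => ker pr (q i) r d g z * ψ i z) ((q i : ℝ) ^ (-κ))) →
        ∀ (T : Finset ι) (sa sb : ∀ i, ZMod (q i)),
          |𝔼 x, 𝔼 x', (lift q Aa (N / (3 * t) / W₂) x * ind T sa x) *
            (lift q Ab (N / (3 * t) / W₂) x' * ind T sb x') *
            proj (low q ∅ y) (fun z => ∏ i, ker pr (q i) r d g (z i) * ψ i (z i)) (x' - x)| ≤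
            y ^ (-κ₂)

end Crest.Agent.N41
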