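import Crest.Agent.N41.DefsC
import Crest.Agent.N41.ES.Lift
import Crest.Agent.N41.Local.Norm
import Crest.Agent.N41.Poly.Basic

/-!
# Row 41, module C5: descent
-/

set_option autoImplicit false

namespace Crest.Agent.N41

open Finset Polynomial
open scoped BigOperators
open Local (Om ptA ptB RP tens)
open ES (avg es proj res qq red lift)

namespace Descent

section LamLemmas

variable {D : ℕ} {ι : Type} [Fintype ι] [DecidableEq ι] {V : ι → Type} [∀ i, Fintype (V i)]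

lemma tens_sum (ν : ∀ i, (Om D → V i) → ℝ) (h : ∀ i, ∑ x, ν i x = 1) : ∑ x, tens ν x = 1 := by
  unfold tens
  rw [Local.sum_tens_prod ν]
  exact prod_eq_one fun i _ => h i

/-- the functional of a function of the coordinates outside `S` does not see the laws on `S` -/
lemma Lam_congr_off (S : Finset ι) (ν ν' : ∀ i, (Om D → V i) → ℝ) (h : ∀ i, ∑ x, ν i x = 1)
    (h' : ∀ i, ∑ x, ν' i x = 1) (hS : ∀ i, i ∉ S → ν i = ν' i) {f : (∀ i, V i) → ℝ}
    (hf : ES.DepOn Sᶜ f) : (Lam ν fun _ => f) = Lam ν' fun _ => f := by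
  let sw : (Om D → ∀ i, V i) × (Om D → ∀ i, V i) → (Om D → ∀ i, V i) × (Om D → ∀ i, V i) :=
    fun z => (fun c => S.piecewise (z.1 c) (z.2 c), fun c => S.piecewise (z.2 c) (z.1 c))
  have hinv : Function.Involutive sw := by
    rintro ⟨x, y⟩
    refine Prod.ext ?_ ?_ <;> funext c i <;> by_cases hi : i ∈ S <;> simp [sw, hi]
  have h1 : (Lam ν fun _ => f) =
      ∑ z : (Om D → ∀ i, V i) × (Om D → ∀ i, V i), tens ν z.1 * tens ν' z.2 * ∏ c, f (z.1 c) := by
    rw [Fintype.sum_prod_type]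
    refine sum_congr rfl fun x _ => ?_
    simp only
    rw [← sum_mul, ← mul_sum, tens_sum ν' h', mul_one]
  have h2 : (Lam ν' fun _ => f) =
      ∑ z : (Om D → ∀ i, V i) × (Om D → ∀ i, V i), tens ν z.1 * tens ν' z.2 * ∏ c, f (z.2 c) := by
    rw [Fintype.sum_prod_type_right]
    refine sum_congr rfl fun x _ => ?_
    simp only
    rw [← sum_mul, ← sum_mul, tens_sum ν h, one_mul]
  rw [h1, h2]
  refine (Fintype.sum_equiv hinv.toPerm _ _ fun z => ?_).symm
  change _ = tens ν (sw z).1 * tens ν' (sw z).2 * ∏ c, f ((sw z).1 c)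
  congr 1
  · unfold tens
    rw [← prod_mul_distrib, ← prod_mul_distrib]
    refine prod_congr rfl fun i _ => ?_
    by_cases hi : i ∈ S
    · simp [sw, hi]
    · simp [sw, hi, hS i hi, mul_comm]
  · refine prod_congr rfl fun c _ => hf _ _ fun i hi => ?_
    simp [sw, Finset.mem_compl.1 hi]

/-- coordinatewise change of variables -/
lemma Lam_comp_equiv (ν : ∀ i, (Om D → V i) → ℝ) (e : ∀ i, V i ≃ V i) (f : (∀ i, V i) → ℝ) :
    (Lam ν fun _ => f) =
      Lam (fun i x => ν i (e i ∘ x)) fun _ x => f fun i => e i (x i) :=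
  (Fintype.sum_equiv (Equiv.piCongrRight fun _ : Om D => Equiv.piCongrRight e) _ _
    fun _ => rfl).symm

omit [Fintype ι] [DecidableEq ι] in
lemma sum_comp_equiv {W : Type} [Fintype W] (n : (Om D → W) → ℝ) (e : W ≃ W) :
    ∑ x, n (e ∘ x) = ∑ x, n x :=
  Fintype.sum_equiv (Equiv.piCongrRight fun _ : Om D => e) _ _ fun _ => rfl

end LamLemmas

section Poly

variable {pr : Bool} {h : ℤ[X]} {t : ℝ} {r d lam : ℕ} {g : ℤ[X]}

lemma St.natDegree_eq (hs : St pr h t r d lam g) : g.natDegree = h.natDegree := by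
  have h1 : (lam : ℤ) ≠ 0 := by have := hs.lam_pos; omega
  have h2 : (d : ℤ) ≠ 0 := by have := hs.r_lt; omega
  rw [← natDegree_C_mul h1, hs.eq]
  exact Poly.natDegree_comp_lin h r h2

lemma St.refine (hs : St pr h t r d lam g) {ρ m μ : ℕ} {g' : ℤ[X]} (hρ : ρ < m) (hμ : 1 ≤ μ)
    (hm : m ∣ μ) (he : C (μ : ℤ) * g' = g.comp (C (ρ : ℤ) + C (m : ℤ) * X))
    (hp : g'.IsPrimitive) (hr : Root pr (r + d * ρ) (d * m) g') :
    St pr h (3 * μ * t) (r + d * ρ) (d * m) (lam * μ) g' := by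
  have hmμ : (m : ℝ) ≤ μ := by exact_mod_cast Nat.le_of_dvd hμ hm
  have hd := hs.d_le
  have hl := hs.lam_le
  have hd0 : (0 : ℝ) ≤ d := Nat.cast_nonneg _
  have hm0 : (0 : ℝ) ≤ m := Nat.cast_nonneg _
  have hμ0 : (0 : ℝ) ≤ μ := Nat.cast_nonneg _
  have ht : 0 ≤ t := hd0.trans hd
  refine ⟨?_, ?_, ?_, ?_, ?_, hp, hr⟩
  · have := hs.r_lt
    have := Nat.mul_le_mul_left d (show ρ + 1 ≤ m from hρ)
    rw [mul_add, mul_one] at this
    omega
  · exact Nat.mul_pos hs.lam_pos hμ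
  · push_cast
    have := mul_le_mul hd hmμ hm0 ht
    nlinarith [mul_nonneg hμ0 ht]
  · push_cast
    have := mul_le_mul_of_nonneg_right hl hμ0
    nlinarith [mul_nonneg hμ0 ht]
  · have h1 : (C (lam : ℤ) * g).comp (Poly.lin ρ m) = (h.comp (Poly.lin r d)).comp (Poly.lin ρ m) := by
      rw [hs.eq]; rfl
    rw [comp_assoc, Poly.lin_comp_lin, mul_comp, C_comp] at h1
    rw [Nat.cast_mul, C_mul, mul_assoc, he]
    push_cast
    exact h1

lemma free_refine {A B : Finset ℤ} (hA : Free pr r d g A) (hB : B ⊆ A) {ρ m μ : ℕ} {g' : ℤ[X]}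
    (hm : 1 ≤ m) (he : C (μ : ℤ) * g' = g.comp (C (ρ : ℤ) + C (m : ℤ) * X)) {c : ℤ}
    (hc : ∀ a ∈ B, (μ : ℤ) ∣ a - c) :
    Free pr (r + d * ρ) (d * m) g' (B.image fun a => (a - c) / μ) := by
  intro a' ha' b' hb' n hn hp hab
  obtain ⟨a, ha, rfl⟩ := Finset.mem_image.1 ha'
  obtain ⟨b, hb, rfl⟩ := Finset.mem_image.1 hb'
  have h1 := congrArg (eval (n : ℤ)) he
  simp only [eval_mul, eval_C, eval_comp, eval_add, eval_X] at h1
  have h2 : a = b := by
    refine hA a (hB ha) b (hB hb) (ρ + m * n) (le_add_left (Nat.mul_pos hm hn)) (fun h' => ?_) ?_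
    · have := hp h'
      rwa [show r + d * (ρ + m * n) = r + d * ρ + d * m * n by ring]
    · push_cast
      rw [← h1, ← hab, mul_sub, Int.mul_ediv_cancel' (hc a ha), Int.mul_ediv_cancel' (hc b hb)]
      ring
  rw [h2]

end Poly

/-- multiplication by a unit as an additive automorphism -/
noncomputable def mulAut {R : Type} [Ring R] {u : R} (hu : IsUnit u) : R ≃+ R :=
  { Units.mulLeft hu.unit with map_add' := fun a b => mul_add (hu.unit : R) a b }

lemma mulAut_apply {R : Type} [Ring R] {u : R} (hu : IsUnit u) (x : R) : mulAut hu x = u * x := rfl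

section Class

variable {D : ℕ} {ι : Type} [Fintype ι] [DecidableEq ι] {q : ι → ℕ} [∀ i, NeZero (q i)]
  {ρ : ι → ℝ}

/-- one residue class: rescaling -/
lemma Lam_class (hD : 0 < D) {ν ν' : ∀ i, (Om D → ZMod (q i)) → ℝ} (hν : ∀ i, Law (ν i) (ρ i))
    (hν' : ∀ i, Law (ν' i) (ρ i)) (S : Finset ι) (c μ : ℤ) (hμ : μ ≠ 0)
    (hu : ∀ i, i ∉ S → IsUnit (μ : ZMod (q i)))
    (hS : ∀ i, i ∉ S → ∀ x, ν' i x = ν i fun ω => μ * x ω) (A : Finset ℤ) (L y : ℝ) :
    (Lam ν fun _ => proj (low q S y) (lift q (A.image fun a => c + μ * a) L)) ≤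
      Lam ν' fun _ => proj (low q ∅ y) (lift q A L) := by
  have hF : ∀ T ∈ low q S y, Disjoint T S := fun _ hT => (ES.mem_low.1 hT).1
  rw [Lam_comp_equiv ν fun i => ES.aff (q i) c μ, ES.proj_lift_image_aff hF c μ hμ hu A L,
    Lam_congr_off S _ ν' (fun i => (sum_comp_equiv _ _).trans (hν i).sum_one)
      (fun i => (hν' i).sum_one) (fun i hi => ?_)
      (ES.depOn_proj (fun T hT => Finset.subset_compl_iff_disjoint_right.2 (hF T hT)) _),
    ← ES.avg_proj_low]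
  · exact Local.Lam_avg_le hν' hD S _
  · funext x
    rw [hS i hi, ← (hν i).transl (fun ω => μ * x ω) c]
    congr 1
    funext ω
    rw [Function.comp_apply, ES.aff_apply c (hu i hi), add_comm]

/-- splitting a lift into residue classes -/
lemma Lam_split (hD : 0 < D) {ν : ∀ i, (Om D → ZMod (q i)) → ℝ} (hν : ∀ i, Law (ν i) (ρ i))
    (F : Finset (Finset ι)) (B : Finset ℤ) (b₀ : ℤ) (M J : ℕ) (hJ : 1 ≤ J)
    (hB : ∀ b ∈ B, (M : ℤ) ∣ b - b₀) (L Y : ℝ) (hY : 0 ≤ Y)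
    (hcl : ∀ (B' : Finset ℤ) (c : ℤ), B' ⊆ B → (∀ b ∈ B', ((M * J : ℕ) : ℤ) ∣ b - c) →
      (Lam ν fun _ => proj F (lift q B' (L / J))) ≤ Y) :
    (Lam ν fun _ => proj F (lift q B L)) ≤ Y := by
  have hJ0 : (0 : ℝ) < J := by exact_mod_cast hJ
  have hJ1 : (0 : ℤ) < J := by exact_mod_cast hJ
  have hroot : (Y ^ ((6 ^ D : ℕ) : ℝ)⁻¹) ^ 6 ^ D = Y := Real.rpow_inv_natCast_pow hY (by positivity)
  let φ : ℤ → ℤ := fun a => ((a - b₀) / M) % J
  have h1 : proj F (lift q B L) = fun x => ∑ j ∈ Finset.Ico (0 : ℤ) J,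
      1 / (J : ℝ) * proj F (lift q (B.filter fun a => φ a = j) (L / J)) x := by
    rw [ES.lift_fiber B L φ (Finset.Ico (0 : ℤ) J) fun a _ => Finset.mem_Ico.2
      ⟨Int.emod_nonneg _ hJ1.ne', Int.emod_lt_of_pos _ hJ1⟩, ES.proj_sum]
    funext x
    refine sum_congr rfl fun j _ => ?_
    rw [ES.lift_div, ES.proj_smul]
    field_simp
  have h2 := (Local.tens_rp hν).Lam_sum_le hD (Finset.Ico (0 : ℤ) J) (fun _ => 1 / (J : ℝ))
    (fun j => proj F (lift q (B.filter fun a => φ a = j) (L / J)))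
    (fun _ => Y ^ ((6 ^ D : ℕ) : ℝ)⁻¹) (fun _ _ => Real.rpow_nonneg hY _) fun j _ => by
      rw [hroot]
      refine hcl _ (b₀ + M * j) (Finset.filter_subset _ _) fun b hb => ?_
      obtain ⟨hb1, hb2⟩ := Finset.mem_filter.1 hb
      refine ⟨(b - b₀) / M / J, ?_⟩
      have e1 := Int.mul_ediv_cancel' (hB b hb1)
      have e2 := Int.mul_ediv_add_emod ((b - b₀) / M) J
      rw [← hb2]
      simp only [φ]
      push_cast
      linear_combination (-1) * e1 - (M : ℤ) * e2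
  have h3 : ∑ _j ∈ Finset.Ico (0 : ℤ) J, |1 / (J : ℝ)| * Y ^ ((6 ^ D : ℕ) : ℝ)⁻¹ =
      Y ^ ((6 ^ D : ℕ) : ℝ)⁻¹ := by
    rw [sum_const, Int.card_Ico, sub_zero, Int.toNat_natCast, nsmul_eq_mul,
      abs_of_pos (by positivity)]
    field_simp
  rw [h3, hroot] at h2
  rw [h1]
  exact h2

end Class

end Descent

open Descent in
/-- **Module C5**. -/
theorem descent (hR : RefineStmt) (hC : CovStmt) (hT : TransportStmt) (_hCh : ChessStmt) :
    DescentStmt := by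
  intro pr h D ι _ _ q _ Cc ρ β N Z t Y hD _hk hq hinj _hN ht hY hEx r d lam g A x₁ ν W c S U s
    hst hfree hI hW hWq hc hν hUS hBd
  have hq1 : ∀ i, 1 ≤ q i := fun i => (hq i).one_le
  have hcop := ES.pairwise_coprime hq hinj
  have hm1 : 1 ≤ W * qq q S := Nat.mul_pos hW (ES.one_le_qq hq1 S)
  obtain ⟨ρ₀, μ, g', hρ₀, hμ1, hmμ, hμd, he, hp', hr'⟩ := hR pr r d (W * qq q S) g
    hst.prim.ne_zero (by have := hst.r_lt; omega) hm1 hst.root
  rw [hst.prim.content_eq_one, Int.natAbs_one, one_mul, St.natDegree_eq hst] at hμd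
  have hst' := St.refine hst hρ₀ hμ1 hmμ he hp' hr'
  have hμR : (1 : ℝ) ≤ μ := by exact_mod_cast hμ1
  have hμZ : (0 : ℤ) < μ := by exact_mod_cast hμ1
  have hB := hBd (3 * μ * t) (by nlinarith) (by
    have : (μ : ℝ) ≤ ((W * qq q S : ℕ) : ℝ) ^ h.natDegree := by
      exact_mod_cast Nat.le_of_dvd (Nat.pow_pos hm1) hμd
    gcongr)
  have hmq : ∀ i, i ∉ S → Nat.Coprime (W * qq q S) (q i) := fun i hi => by
    have := ES.isUnit_mul_qq hcop (hWq i) hi
    rwa [Int.cast_natCast, ZMod.isUnit_iff_coprime] at this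
  have hμq : ∀ i, i ∉ S → Nat.Coprime μ (q i) := fun i hi =>
    Nat.Coprime.coprime_dvd_left hμd (Nat.Coprime.pow_left _ (hmq i hi))
  have hu : ∀ i, i ∉ S → IsUnit (μ : ZMod (q i)) := fun i hi =>
    (ZMod.isUnit_iff_coprime _ _).2 (hμq i hi)
  -- the new laws
  have hex : ∀ i, ∃ ν' : (Om D → ZMod (q i)) → ℝ,
      Valid ν' (ker pr (q i) (r + d * ρ₀) (d * (W * qq q S)) g') Cc (ρ i) (β i) ∧
        (i ∉ S → ∀ x, ν' x = ν i fun ω => (μ : ℤ) * x ω) := fun i => by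
    by_cases hi : i ∈ S
    · obtain ⟨ν', h'⟩ := hEx _ _ _ _ _ hst' i
      exact ⟨ν', h', fun h => absurd hi h⟩
    · refine ⟨fun x => ν i (mulAut (hu i hi) ∘ x), ?_, fun _ x => ?_⟩
      · have := hT D _ (ν i) _ Cc (ρ i) (β i) (mulAut (hu i hi)) (hν i)
        convert this using 1
        funext z
        exact hC pr (q i) r d ρ₀ _ μ g g' (hq i)
          ((hq i).coprime_iff_not_dvd.1 (hmq i hi).symm)
          ((hq i).coprime_iff_not_dvd.1 (hμq i hi).symm) he z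
      · rw [Int.cast_natCast]; rfl
  choose ν' hν' hν'S using hex
  -- the classes
  have hF : ∀ T ∈ low q S (Z ^ 2), Disjoint T U :=
    fun _ hT => (ES.mem_low.1 hT).1.mono_right hUS
  rw [ES.proj_res_lift hF]
  set B := A.filter fun a => ∀ i ∈ U, (a : ZMod (q i)) = s i with hBdef
  have hBA : B ⊆ A := Finset.filter_subset _ _
  obtain ⟨b₀, hb₀⟩ : ∃ b₀ : ℤ, ∀ b ∈ B, ((W * qq q U : ℕ) : ℤ) ∣ b - b₀ := by
    rcases B.eq_empty_or_nonempty with h0 | ⟨b₀, hb₀⟩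
    · exact ⟨0, by simp [h0]⟩
    · refine ⟨b₀, fun b hb => ES.mul_qq_dvd_sub hcop (fun i _ => hWq i)
        ((hc b₀ (hBA hb₀)).trans (hc b (hBA hb)).symm) fun i hi => ?_⟩
      rw [(Finset.mem_filter.1 hb₀).2 i hi, (Finset.mem_filter.1 hb).2 i hi]
  obtain ⟨J, hJ⟩ : W * qq q U ∣ μ := (Nat.mul_dvd_mul_left W (ES.qq_dvd q hUS)).trans hmμ
  have hJ1 : 1 ≤ J := Nat.pos_of_ne_zero fun h0 => by rw [h0, mul_zero] at hJ; omega
  refine Lam_split hD (fun i => (hν i).1) _ B b₀ (W * qq q U) J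
    hJ1 hb₀ _ Y hY fun B' c' hB' hc' => ?_
  rw [← hJ] at hc'
  have hL : N / (3 * t) / W / qq q U / J = N / (3 * μ * t) := by
    rw [hJ]; push_cast
    rw [div_div, div_div, div_div]
    congr 1; ring
  have hL' : N / (3 * t) / ((μ : ℤ) : ℝ) = N / (3 * μ * t) := by
    rw [div_div]; push_cast
    congr 1; ring
  have hI' := ES.inI_image_div hμZ hc' fun a ha => hI a (hBA (hB' ha))
  rw [hL'] at hI'
  rw [hL, ← ES.image_div_eq hc']
  refine (Lam_class hD (fun i => (hν i).1) (fun i => (hν' i).1) S c' μ hμZ.ne'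
    (fun i hi => by rw [Int.cast_natCast]; exact hu i hi) hν'S _ _ _).trans ?_
  exact hB _ _ _ g' _ _ ν' hst' hI' (free_refine hfree (hB'.trans hBA) hm1 he hc') hν'

end Crest.Agent.N41
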