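import Crest.Agent.N41.PairAppLocal
import Crest.Agent.N41.Poly.Basic

/-!
# Row 41, module C6, part 2 (helper93): `PairAppStmt`
-/

set_option autoImplicit false

namespace Crest.Agent.N41

open Finset Polynomial
open scoped BigOperators
open ES (avg es proj res qq red lift)

namespace PairApp

lemma arch_mono {k : ℕ} {P : ℤ[X]} {X₁ X₂ : ℕ} {L Z Z' : ℝ} (h : Arch k P X₁ X₂ L Z)
    (hL : 0 ≤ L) (hZ : Z ≤ Z') : Arch k P X₁ X₂ L Z' where
  one_le := h.one_le
  le := h.le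
  mono := h.mono
  step := h.step.trans (mul_le_mul_of_nonneg_right hZ hL)
  range := h.range
  big := h.big.trans (mul_le_mul_of_nonneg_right hZ (by positivity))
  small := h.small
  lead := h.lead.trans hZ

lemma natDegree_of_eq {h g : ℤ[X]} {r d lam c : ℤ} (hd : d ≠ 0) (hl : lam ≠ 0)
    (hk : 0 < h.natDegree) (e : C lam * g = h.comp (C r + C d * X) - C c) :
    g.natDegree = h.natDegree ∧ lam * g.leadingCoeff = h.leadingCoeff * d ^ h.natDegree := by
  have h1 : (h.comp (C r + C d * X)).natDegree = h.natDegree := Poly.natDegree_comp_lin h r hd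
  have h2 : (h.comp (C r + C d * X)).leadingCoeff = h.leadingCoeff * d ^ h.natDegree :=
    Poly.leadingCoeff_comp_lin h r hd
  have h3 : (C lam * g).natDegree = h.natDegree := by rw [e, natDegree_sub_C, h1]
  have h4 : g.natDegree = h.natDegree := by rwa [natDegree_C_mul hl] at h3
  refine ⟨h4, ?_⟩
  have h5 : (C lam * g).coeff h.natDegree = lam * g.leadingCoeff := by
    rw [coeff_C_mul, leadingCoeff, h4]
  rw [← h5, e, coeff_sub, coeff_C_of_ne_zero hk.ne', sub_zero, ← h2, leadingCoeff, h1]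

/-- the rescaled set -/
noncomputable def resc (A : Finset ℤ) (c : ℤ) (W : ℕ) : Finset ℤ := A.image fun a => (a - c) / W

lemma resc_eq {a c : ℤ} {W : ℕ} (h : a ≡ c [ZMOD W]) : c + W * ((a - c) / W) = a := by
  rw [Int.mul_ediv_cancel' h.symm.dvd]
  ring

lemma mem_resc {A : Finset ℤ} {c : ℤ} {W : ℕ} (h : ∀ a ∈ A, a ≡ c [ZMOD W]) {a' : ℤ}
    (ha : a' ∈ resc A c W) : c + W * a' ∈ A := by
  obtain ⟨a, ha', rfl⟩ := mem_image.1 ha
  rwa [resc_eq (h a ha')]

lemma sum_resc {A : Finset ℤ} {c : ℤ} {W : ℕ} (h : ∀ a ∈ A, a ≡ c [ZMOD W]) (F : ℤ → ℝ) :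
    ∑ a' ∈ resc A c W, F (c + W * a') = ∑ a ∈ A, F a := by
  rw [resc, Finset.sum_image]
  · exact Finset.sum_congr rfl fun a ha => by rw [resc_eq (h a ha)]
  · intro a ha b hb hab
    have h1 := resc_eq (h a ha)
    have h2 := resc_eq (h b hb)
    simp only at hab
    rw [← h1, ← h2, hab]

lemma inI_resc {A : Finset ℤ} {c : ℤ} {W : ℕ} (hW : 1 ≤ W) (h : ∀ a ∈ A, a ≡ c [ZMOD W])
    {x L : ℝ} (hA : InI A x L) : InI (resc A c W) ((x - c) / W) (L / W) := by
  intro a' ha'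
  obtain ⟨h1, h2⟩ := hA _ (mem_resc h ha')
  have hW' : (0 : ℝ) < W := by exact_mod_cast hW
  push_cast at h1 h2
  rw [← add_div, div_le_iff₀ hW', lt_div_iff₀ hW']
  constructor <;> linarith

lemma sum_ind {ι : Type} [Fintype ι] [DecidableEq ι] (q : ι → ℕ) [∀ i, NeZero (q i)]
    (A : Finset ℤ) (T : Finset ι) (s : ∀ i, ZMod (q i)) (F : ℤ → ℝ) :
    ∑ a ∈ A, ind T s (red q a) * F a = ∑ a ∈ A with ∀ i ∈ T, red q a i = s i, F a := by
  rw [Finset.sum_filter]
  refine Finset.sum_congr rfl fun a _ => ?_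
  unfold ind
  split_ifs <;> simp

end PairApp

open PairApp

theorem pairApp (pr : Bool) (hP : PairStmt pr) (hS : SmallStmt) (hA : ArchStmt)
    (hL : LocalExpStmt) (hN : NonconstStmt) : PairAppStmt pr := by
  intro k κ Cc hk hκ hCc
  obtain ⟨pP, C₁, κ₂, D₀, hC₁, hκ₂, HP⟩ := hP k κ (2 * Cc) hk hκ (by linarith)
  obtain ⟨δ, pL, -, HL⟩ := hL k
  refine ⟨max pP pL, C₁, κ₂, D₀, hC₁, hκ₂, fun p₀ hp₀ => ?_⟩
  obtain ⟨W, hW, HS⟩ := hS k p₀
  refine ⟨W, hW, fun h hdeg hlead => ?_⟩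
  obtain ⟨Ch, N₀, hCh, HA⟩ := hA h (hdeg ▸ hk) hlead
  refine ⟨Ch, max N₀ 1, hCh, ?_⟩
  intro ι _ _ q _ N Zp y t hN₀ hq hqi hqp hall hDy hyZ hZN hlog hChZ htW ht r d lam g hSt
  have hN1 : (1 : ℝ) ≤ N := (le_max_right _ _).trans hN₀
  have hd : 1 ≤ d := by have := hSt.r_lt; omega
  have hlam : 1 ≤ lam := hSt.lam_pos
  have hgdeg : g.natDegree = k := by
    rw [← hdeg]
    refine (natDegree_of_eq (r := r) (d := d) (lam := lam) (c := 0) (by omega) (by omega)
      (by omega) ?_).1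
    rw [hSt.eq, C_0, sub_zero]
  obtain ⟨n₀, W₁, W₂, P, hn₀, hW₁, hW₂, hW₂', hrel, hsm, hlin, hcop⟩ :=
    HS pr r d g hgdeg.le hd hSt.prim hSt.root
  obtain ⟨hnc, hrd⟩ := hN pr r d g hSt.prim hSt.root
  have hndvd : ∀ i, ¬ q i ∣ W₁ * W₂ := fun i hi => absurd (hsm _ (hq i) hi) (not_le.2 (hqp i))
  refine ⟨W₂, g.eval (n₀ : ℤ), hW₂, hW₂', fun i => ?_, ?_⟩
  · exact ((Nat.Prime.coprime_iff_not_dvd (hq i)).2 fun hi => hndvd i (hi.mul_left _)).symm
  intro A Aa Ab x₀ ca cb ψ hfree hAa hAb hIa hIb hca hcb hcc hψ hψm hψo T sa sb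
  have : ∀ i, Fact (q i).Prime := fun i => ⟨hq i⟩
  set c₀ : ℤ := g.eval (n₀ : ℤ) with hc₀
  have h1 : ∀ i, ((W₁ : ℤ) : ZMod (q i)) ≠ 0 := fun i hi => by
    rw [Int.cast_natCast, ZMod.natCast_eq_zero_iff] at hi
    exact hndvd i (hi.mul_right _)
  have h2 : ∀ i, ((W₂ : ℤ) : ZMod (q i)) ≠ 0 := fun i hi => by
    rw [Int.cast_natCast, ZMod.natCast_eq_zero_iff] at hi
    exact hndvd i (hi.mul_left _)
  -- real parameters
  have ht0 : 0 < t := by linarith
  have hN0 : 0 < N := by linarith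
  have hW1 : (1 : ℝ) ≤ W := by exact_mod_cast hW
  have hlam1 : (1 : ℝ) ≤ lam := by exact_mod_cast hlam
  have hW₂1 : (1 : ℝ) ≤ W₂ := by exact_mod_cast hW₂
  have hd' : ((d * W₁ : ℕ) : ℝ) ≤ t * W := by
    push_cast
    exact mul_le_mul hSt.d_le (by exact_mod_cast hW₁) (by positivity) ht0.le
  have hlam' : ((lam * W₂ : ℕ) : ℝ) ≤ t * W := by
    push_cast
    exact mul_le_mul hSt.lam_le (by exact_mod_cast hW₂') (by positivity) ht0.le
  have hr' : r + d * n₀ < d * W₁ := by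
    have := hSt.r_lt
    calc r + d * n₀ < d + d * n₀ := by omega
      _ = d * (n₀ + 1) := by ring
      _ ≤ d * W₁ := Nat.mul_le_mul_left _ hn₀
  have hhr : h.eval ((r + d * n₀ : ℕ) : ℤ) = lam * c₀ := by
    have := congrArg (eval (n₀ : ℤ)) hSt.eq
    simp only [eval_mul, eval_C, eval_comp, eval_add, eval_X] at this
    push_cast
    rw [← this]
  have heq : C ((lam * W₂ : ℕ) : ℤ) * P =
      h.comp (C ((r + d * n₀ : ℕ) : ℤ) + C ((d * W₁ : ℕ) : ℤ) * X) -
        C (h.eval ((r + d * n₀ : ℕ) : ℤ)) := by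
    have e1 : h.comp (C ((r + d * n₀ : ℕ) : ℤ) + C ((d * W₁ : ℕ) : ℤ) * X) =
        (C (lam : ℤ) * g).comp (C (n₀ : ℤ) + C (W₁ : ℤ) * X) := by
      rw [hSt.eq, comp_assoc]
      congr 1
      simp only [add_comp, mul_comp, C_comp, X_comp]
      push_cast
      simp only [C_add, C_mul]
      ring
    rw [e1, hhr, mul_comp, C_comp, hrel]
    push_cast
    simp only [C_mul]
    ring
  have hℓ1 : N ^ (1 - 1 / (4 * h.natDegree) : ℝ) ≤ lam * N / t := by
    rw [hdeg, Real.rpow_sub hN0, Real.rpow_one]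
    have : t ≤ N ^ (1 / (4 * k) : ℝ) := le_trans (le_mul_of_one_le_right ht0.le hW1) htW
    calc N / N ^ (1 / (4 * k) : ℝ) ≤ N / t := div_le_div_of_nonneg_left hN0.le ht0 this
      _ ≤ lam * N / t := by
        gcongr
        exact le_mul_of_one_le_left hN0.le hlam1
  have hℓ2 : lam * N / t ≤ N := by
    rw [div_le_iff₀ ht0, mul_comm]
    exact mul_le_mul_of_nonneg_left hSt.lam_le hN0.le
  obtain ⟨X₁, X₂, hArch, hX₂, hrange⟩ := HA N (lam * N / t) (r + d * n₀) (d * W₁) (lam * W₂) P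
    ((le_max_left _ _).trans hN₀) hr' (Nat.mul_pos hlam hW₂) (by rw [hdeg]; exact hd'.trans htW)
    (by rw [hdeg]; exact hlam'.trans htW) hℓ1 hℓ2 heq
  rw [hdeg] at hArch hX₂
  set L : ℝ := N / (3 * t) / W₂ with hLdef
  have hLeq : lam * N / t / (3 * ((lam * W₂ : ℕ) : ℝ)) = L := by
    rw [hLdef]
    push_cast
    field_simp
  have hL0 : 0 < L := by positivity
  rw [hLeq] at hArch
  have hd1 : (1 : ℝ) ≤ ((d * W₁ : ℕ) : ℝ) := by
    have : 1 ≤ d * W₁ := by omega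
    exact_mod_cast this
  have hCd : Ch * ((d * W₁ : ℕ) : ℝ) ^ k ≤ Zp := by
    refine le_trans ?_ hChZ
    gcongr
  have hdZ : ((d * W₁ : ℕ) : ℝ) ≤ Zp := by
    refine le_trans ?_ hCd
    calc ((d * W₁ : ℕ) : ℝ) ≤ ((d * W₁ : ℕ) : ℝ) ^ k := le_self_pow₀ hd1 (by omega)
      _ ≤ _ := le_mul_of_one_le_left (by positivity) hCh
  obtain ⟨hPdeg, hPlead⟩ := natDegree_of_eq (h := h) (g := P) (by omega)
    (by have := Nat.mul_pos hlam hW₂; omega) (by omega) heq
  have hPlead' : 0 < P.leadingCoeff := by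
    have h3 : (0 : ℤ) < ((lam * W₂ : ℕ) : ℤ) * P.leadingCoeff := by
      rw [hPlead]
      exact mul_pos hlead (pow_pos (by omega) _)
    exact (pos_iff_pos_of_mul_pos h3).1 (by exact_mod_cast Nat.mul_pos hlam hW₂)
  have hlogL : Real.log L ≤ Zp := by
    refine le_trans (Real.log_le_log hL0 ?_) hlog
    rw [hLdef, div_div]
    exact div_le_self hN0.le (by nlinarith)
  -- the weights
  have hmean : ∀ i, 𝔼 m, pw pr (q i) r d g (ψ i) n₀ W₁ m = 1 := fun i => by
    rw [expect_pw hrel (h1 i) (h2 i)]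
    exact hψm i
  have hadm : ∀ i m, pw pr (q i) r d g (ψ i) n₀ W₁ m ≠ 0 →
      m ∈ adm pr (q i) (r + d * n₀) (d * W₁) P := fun i m hm => mem_adm_of_pw hrel (h1 i) hm
  have hpush : ∀ i, push (q i) P (pw pr (q i) r d g (ψ i) n₀ W₁) =
      fun z => (fun z => ker pr (q i) r d g z * ψ i z)
        ((c₀ : ZMod (q i)) + ((W₂ : ℤ) : ZMod (q i)) * z) :=
    fun i => funext fun z => push_pw hrel (h1 i) (h2 i) z
  -- the sets
  set A₁ := Aa.filter fun a => ∀ i ∈ T, red q a i = sa i with hA₁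
  set B₁ := Ab.filter fun b => ∀ i ∈ T, red q b i = sb i with hB₁
  have hA₁s : A₁ ⊆ Aa := filter_subset _ _
  have hB₁s : B₁ ⊆ Ab := filter_subset _ _
  have hcA : ∀ a ∈ A₁, a ≡ ca [ZMOD W₂] := fun a ha => hca a (hA₁s ha)
  have hcB : ∀ b ∈ B₁, b ≡ ca + c₀ [ZMOD W₂] := fun b hb => by
    refine (hcb b (hB₁s hb)).trans ?_
    have := hcc.add_left ca
    rwa [add_sub_cancel] at this
  have hdiff : ∀ a' ∈ resc A₁ ca W₂, ∀ b' ∈ resc B₁ (ca + c₀) W₂,
      N / (3 * t) < ((c₀ + W₂ * (b' - a') : ℤ) : ℝ) ∧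
        ((c₀ + W₂ * (b' - a') : ℤ) : ℝ) < 3 * (N / (3 * t)) := by
    intro a' ha' b' hb'
    obtain ⟨h3, h4⟩ := hIa _ (hA₁s (mem_resc hcA ha'))
    obtain ⟨h5, h6⟩ := hIb _ (hB₁s (mem_resc hcB hb'))
    push_cast at h3 h4 h5 h6 ⊢
    constructor <;> linarith
  have key := HP ι q P (r + d * n₀) (d * W₁) X₁ X₂ L Zp y ((x₀ - ca) / W₂)
    ((x₀ + 2 * (N / (3 * t)) - (ca + c₀ : ℤ)) / W₂)
    (fun i => pw pr (q i) r d g (ψ i) n₀ W₁) (resc A₁ ca W₂) (resc B₁ (ca + c₀) W₂)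
    hq hqi (fun i => lt_of_le_of_lt ((le_max_left _ _).trans hp₀) (hqp i))
    (hPdeg.trans hdeg) hPlead' (arch_mono hArch hL0.le hCd) hr' hdZ hcop hDy hyZ (hZN.trans hX₂)
    hlogL
    (fun p hp hpZ hpq => by
      have hle : p ≤ p₀ := by
        by_contra hc
        exact hpq (hall p hp (not_le.1 hc) hpZ)
      obtain ⟨h3, h4, h5⟩ := hlin p hp hle
      exact ⟨h4, h5, fun _ => h3.mul_left _⟩)
    (fun i => by
      have : ∃ m, pw pr (q i) r d g (ψ i) n₀ W₁ m ≠ 0 := by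
        by_contra hc
        push Not at hc
        have := hmean i
        simp [hc] at this
      obtain ⟨m, hm⟩ := this
      have h3 := hadm i m hm
      simp only [adm, mem_filter, mem_univ, true_and] at h3
      exact exists_coeff_of_deriv h3.1)
    (fun i n => by
      have h3 := (HL pr (q i) r d g (hq i)
        (lt_of_le_of_lt ((le_max_right _ _).trans hp₀) (hqp i)) hgdeg.le (hnc _ (hq i)) hrd).1
      refine ⟨mul_nonneg (wadm_nonneg _ _ _ _ _ _) (hψ i _).1, ?_⟩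
      exact mul_le_mul (h3 _) (hψ i _).2 (hψ i _).1 (by norm_num))
    hmean hadm
    (fun i => by
      rw [hpush i]
      exact opBd_aff (fun z => ker pr (q i) r d g z * ψ i z) _ (c₀ : ZMod (q i))
        ((W₂ : ℤ) : ZMod (q i)) (h2 i) (hψo i))
    (inI_resc hW₂ hcA fun a ha => hIa a (hA₁s ha))
    (inI_resc hW₂ hcB fun b hb => hIb b (hB₁s hb))
    (fun a' ha' b' hb' => by
      obtain ⟨h3, h4⟩ := hdiff a' ha' b' hb'
      have e : ((((lam * W₂ : ℕ) : ℤ) * (b' - a') + h.eval ((r + d * n₀ : ℕ) : ℤ) : ℤ) : ℝ) =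
          lam * ((c₀ + W₂ * (b' - a') : ℤ) : ℝ) := by
        rw [hhr]
        push_cast
        ring
      refine hrange (b' - a') ?_ ?_
      · rw [e]
        calc lam * N / t / 3 = lam * (N / (3 * t)) := by field_simp
          _ ≤ _ := by gcongr
      · rw [e]
        calc lam * ((c₀ + W₂ * (b' - a') : ℤ) : ℝ) ≤ lam * (3 * (N / (3 * t))) := by gcongr
          _ = lam * N / t := by field_simp)
    (fun a' ha' b' hb' m hm1 _ hm hc => by
      obtain ⟨h3, -⟩ := hdiff a' ha' b' hb'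
      have h4 := hAa (hA₁s (mem_resc hcA ha'))
      have h5 := hAb (hB₁s (mem_resc hcB hb'))
      have h6 : 1 ≤ m := hArch.one_le.trans hm1
      have h7 := hfree _ h5 _ h4 (n₀ + W₁ * m) (by nlinarith)
        (fun hp => by
          have := hm hp
          rwa [show r + d * n₀ + d * W₁ * m = r + d * (n₀ + W₁ * m) by ring] at this)
        (by
          have := congrArg (eval (m : ℤ)) hrel
          simp only [eval_mul, eval_C, eval_comp, eval_add, eval_X] at this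
          push_cast
          rw [this, ← hc]
          ring)
      have h8 : c₀ + W₂ * (b' - a') = 0 := by linarith
      rw [h8, Int.cast_zero] at h3
      have : 0 < N / (3 * t) := by positivity
      linarith)
  -- the identity
  set H := proj (low q ∅ y) fun z : ∀ i, ZMod (q i) => ∏ i, ker pr (q i) r d g (z i) * ψ i (z i)
    with hH
  have hproj : ∀ z : ∀ i, ZMod (q i), proj (low q ∅ y)
      (fun z : ∀ i, ZMod (q i) => ∏ i, push (q i) P (pw pr (q i) r d g (ψ i) n₀ W₁) (z i)) z =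
      H fun i => (c₀ : ZMod (q i)) + ((W₂ : ℤ) : ZMod (q i)) * z i := by
    intro z
    have := congrFun (ES.proj_comp_equiv (fun i => aff (c₀ : ZMod (q i)) _ (h2 i)) (low q ∅ y)
      fun z : ∀ i, ZMod (q i) => ∏ i, ker pr (q i) r d g (z i) * ψ i (z i)) z
    simp only [hpush]
    exact this
  have hsum : ∑ a' ∈ resc A₁ ca W₂, ∑ b' ∈ resc B₁ (ca + c₀) W₂, proj (low q ∅ y)
      (fun z : ∀ i, ZMod (q i) => ∏ i, push (q i) P (pw pr (q i) r d g (ψ i) n₀ W₁) (z i))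
        (red q (b' - a')) =
      ∑ a ∈ Aa, ∑ b ∈ Ab, ind T sa (red q a) * ind T sb (red q b) * H (red q b - red q a) := by
    simp only [mul_assoc, ← Finset.mul_sum]
    rw [sum_ind q Aa T sa, ← hA₁, ← sum_resc hcA]
    refine Finset.sum_congr rfl fun a' _ => ?_
    rw [sum_ind q Ab T sb, ← hB₁, ← sum_resc hcB]
    refine Finset.sum_congr rfl fun b' _ => ?_
    rw [hproj]
    congr 1
    funext i
    simp only [red, Pi.sub_apply]
    push_cast
    ring
  rw [hsum] at key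
  rw [expect_lift_pair, abs_div, abs_of_pos (pow_pos hL0 2), div_le_iff₀ (pow_pos hL0 2), mul_comm]
  exact key

end Crest.Agent.N41
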