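import Crest.Agent.N41.DefsC
import Crest.Agent.N41.ES.Op

/-!
# Row 41, module C6, part 1 (helper93): local lemmas for `PairAppStmt`

Affine changes of variable in `ZMod p`, the pulled back weights, and averages of lifts.
-/

set_option autoImplicit false

namespace Crest.Agent.N41.PairApp

open Finset Polynomial
open scoped BigOperators
open ES (avg es proj res qq red lift)

/-- the affine bijection `z ↦ c + w z` of a field -/
noncomputable def aff {F : Type} [Field F] (c w : F) (hw : w ≠ 0) : F ≃ F :=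
  (Equiv.mulLeft₀ w hw).trans (Equiv.addLeft c)

@[simp] lemma aff_apply {F : Type} [Field F] (c w : F) (hw : w ≠ 0) (z : F) :
    aff c w hw z = c + w * z := rfl

/-- the operator bound is invariant under affine changes of variable -/
lemma opBd_aff {F : Type} [Field F] [Fintype F] (K : F → ℝ) (ρ : ℝ) (c w : F) (hw : w ≠ 0)
    (h : OpBd K ρ) : OpBd (fun t => K (c + w * t)) ρ := by
  intro u v hu
  have h1 := h (fun s => u ((aff 0 w hw).symm s)) (fun t => v ((aff c w hw).symm t)) (by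
    rw [Equiv.sum_comp (aff 0 w hw).symm u]; exact hu)
  have e1 : 𝔼 s, u ((aff 0 w hw).symm s) ^ 2 = 𝔼 s, u s ^ 2 :=
    Fintype.expect_equiv (aff 0 w hw).symm _ _ fun _ => rfl
  have e2 : 𝔼 s, v ((aff c w hw).symm s) ^ 2 = 𝔼 s, v s ^ 2 :=
    Fintype.expect_equiv (aff c w hw).symm _ _ fun _ => rfl
  have e3 : 𝔼 s, 𝔼 t, u s * v t * K (c + w * (t - s)) =
      𝔼 s, 𝔼 t, u ((aff 0 w hw).symm s) * v ((aff c w hw).symm t) * K (t - s) := by
    refine Fintype.expect_equiv (aff 0 w hw) _ _ fun s => ?_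
    refine Fintype.expect_equiv (aff c w hw) _ _ fun t => ?_
    rw [Equiv.symm_apply_apply, Equiv.symm_apply_apply, aff_apply, aff_apply]
    congr 2
    ring
  rw [e1, e2, ← e3] at h1
  exact h1

section Evz

variable (p : ℕ)

lemma evz_comp_lin (g : ℤ[X]) (a b : ℤ) (n : ZMod p) :
    evz p (g.comp (C a + C b * X)) n = evz p g ((a : ZMod p) + (b : ZMod p) * n) := by
  simp [evz, Polynomial.map_comp, eval_comp]

lemma evz_C_add_C_mul (P : ℤ[X]) (a b : ℤ) (n : ZMod p) :
    evz p (C a + C b * P) n = (a : ZMod p) + (b : ZMod p) * evz p P n := by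
  simp [evz]

lemma evz_C_mul (P : ℤ[X]) (b : ℤ) (n : ZMod p) :
    evz p (C b * P) n = (b : ZMod p) * evz p P n := by
  simp [evz]

variable {p} {g P : ℤ[X]} {n₀ W₁ W₂ c₀ : ℤ}

lemma evz_rel (h : g.comp (C n₀ + C W₁ * X) = C c₀ + C W₂ * P) (n : ZMod p) :
    evz p g ((n₀ : ZMod p) + (W₁ : ZMod p) * n) = (c₀ : ZMod p) + (W₂ : ZMod p) * evz p P n := by
  rw [← evz_comp_lin, h, evz_C_add_C_mul]

lemma evz_deriv_rel (h : g.comp (C n₀ + C W₁ * X) = C c₀ + C W₂ * P) (n : ZMod p) :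
    (W₁ : ZMod p) * evz p (derivative g) ((n₀ : ZMod p) + (W₁ : ZMod p) * n) =
      (W₂ : ZMod p) * evz p (derivative P) n := by
  have h1 := congrArg derivative h
  rw [derivative_comp] at h1
  simp only [derivative_add, derivative_C, zero_add, derivative_C_mul, derivative_X,
    mul_one] at h1
  rw [← evz_comp_lin, ← evz_C_mul, ← evz_C_mul, ← h1]

/-- a polynomial whose derivative does not vanish somewhere is not constant modulo `p` -/
lemma exists_coeff_of_deriv {n : ZMod p} (hn : evz p (derivative P) n ≠ 0) :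
    ∃ j, 1 ≤ j ∧ ¬ (p : ℤ) ∣ P.coeff j := by
  by_contra hc
  push Not at hc
  apply hn
  have : (derivative P).map (Int.castRingHom (ZMod p)) = 0 := by
    ext j
    rw [coeff_map, coeff_derivative, coeff_zero, map_mul]
    have := (ZMod.intCast_zmod_eq_zero_iff_dvd _ p).2 (hc (j + 1) (by omega))
    rw [eq_intCast, this, zero_mul]
  rw [evz, this, eval_zero]

end Evz

section Weight

variable (pr : Bool) (p : ℕ) [Fact p.Prime] (r d : ℕ) (g : ℤ[X]) (ψ : ZMod p → ℝ)

lemma wadm_nonneg (n : ZMod p) : 0 ≤ wadm pr p r d g n := by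
  unfold wadm
  split_ifs
  · positivity
  · exact le_rfl

lemma mem_adm_of_ne {n : ZMod p} (hn : wadm pr p r d g n ≠ 0) : n ∈ adm pr p r d g := by
  by_contra hc
  exact hn (by simp [wadm, hc])

/-- the weight pulled back to the progression `n₀ + W₁ m` -/
noncomputable def pw (n₀ W₁ : ℤ) (m : ZMod p) : ℝ :=
  wadm pr p r d g ((n₀ : ZMod p) + (W₁ : ZMod p) * m) *
    ψ (evz p g ((n₀ : ZMod p) + (W₁ : ZMod p) * m))

variable {pr p r d g ψ} {P : ℤ[X]} {n₀ W₁ W₂ c₀ : ℤ}

lemma push_pw (h : g.comp (C n₀ + C W₁ * X) = C c₀ + C W₂ * P) (h1 : (W₁ : ZMod p) ≠ 0)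
    (h2 : (W₂ : ZMod p) ≠ 0) (t : ZMod p) :
    push p P (pw pr p r d g ψ n₀ W₁) t =
      ker pr p r d g ((c₀ : ZMod p) + (W₂ : ZMod p) * t) * ψ ((c₀ : ZMod p) + (W₂ : ZMod p) * t) := by
  unfold ker push
  rw [Finset.sum_mul, Finset.sum_filter, Finset.sum_filter]
  refine Fintype.sum_equiv (aff (n₀ : ZMod p) (W₁ : ZMod p) h1) _ _ fun m => ?_
  rw [aff_apply, evz_rel h]
  by_cases hm : evz p P m = t
  · rw [if_pos hm, if_pos (by rw [hm]), pw, evz_rel h, hm]
  · rw [if_neg hm, if_neg]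
    intro hc
    exact hm (mul_left_cancel₀ h2 (add_left_cancel hc))

lemma sum_push (P : ℤ[X]) (π : ZMod p → ℝ) : ∑ t, push p P π t = ∑ n, π n := by
  unfold push
  exact Finset.sum_fiberwise univ (fun n => evz p P n) π

lemma expect_pw (h : g.comp (C n₀ + C W₁ * X) = C c₀ + C W₂ * P) (h1 : (W₁ : ZMod p) ≠ 0)
    (h2 : (W₂ : ZMod p) ≠ 0) :
    𝔼 m, pw pr p r d g ψ n₀ W₁ m = 𝔼 z, ker pr p r d g z * ψ z := by
  have e : 𝔼 t, push p P (pw pr p r d g ψ n₀ W₁) t = 𝔼 z, ker pr p r d g z * ψ z := by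
    refine Fintype.expect_equiv (aff (c₀ : ZMod p) (W₂ : ZMod p) h2) _ _ fun t => ?_
    rw [push_pw h h1 h2, aff_apply]
  rw [← e, Finset.expect_eq_sum_div_card, Finset.expect_eq_sum_div_card, sum_push]

lemma mem_adm_of_pw {n₀ W₁ : ℕ} (h : g.comp (C (n₀ : ℤ) + C (W₁ : ℤ) * X) = C c₀ + C W₂ * P)
    (h1 : ((W₁ : ℤ) : ZMod p) ≠ 0) {m : ZMod p} (hm : pw pr p r d g ψ n₀ W₁ m ≠ 0) :
    m ∈ adm pr p (r + d * n₀) (d * W₁) P := by
  have h3 := mem_adm_of_ne pr p r d g (left_ne_zero_of_mul hm)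
  simp only [adm, mem_filter, mem_univ, true_and] at h3 ⊢
  refine ⟨?_, fun hp => ?_⟩
  · have h4 := evz_deriv_rel (p := p) h m
    intro h5
    rw [h5, mul_zero] at h4
    exact mul_ne_zero h1 h3.1 h4
  · have h4 := h3.2 hp
    intro h5
    apply h4
    rw [← h5]
    push_cast
    ring

end Weight

section Lift

variable {ι : Type} [Fintype ι] [DecidableEq ι] (q : ι → ℕ) [∀ i, NeZero (q i)]

lemma card_model : Fintype.card (∀ i, ZMod (q i)) = qq q univ := by
  rw [Fintype.card_pi]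
  simp [qq, ZMod.card]

lemma expect_lift_mul (A : Finset ℤ) (L : ℝ) (H : (∀ i, ZMod (q i)) → ℝ) :
    𝔼 x, lift q A L x * H x = (∑ a ∈ A, H (red q a)) / L := by
  classical
  have hc : ((qq q univ : ℕ) : ℝ) ≠ 0 := by
    rw [← card_model]
    exact_mod_cast Fintype.card_ne_zero
  rw [Finset.expect_eq_sum_div_card, Finset.card_univ, card_model,
    ← Finset.sum_fiberwise A (red q) fun a => H (red q a)]
  have : ∀ x, lift q A L x * H x =
      (qq q univ : ℝ) / L * ∑ a ∈ A with red q a = x, H (red q a) := by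
    intro x
    rw [Finset.sum_congr rfl (g := fun _ => H x) fun a ha => by rw [(mem_filter.1 ha).2]]
    rw [Finset.sum_const, nsmul_eq_mul, lift, mul_assoc]
  simp only [this]
  rw [← Finset.mul_sum]
  field_simp

lemma expect_lift_pair (A B : Finset ℤ) (L : ℝ) (u v H : (∀ i, ZMod (q i)) → ℝ) :
    𝔼 x, 𝔼 x', (lift q A L x * u x) * (lift q B L x' * v x') * H (x' - x) =
      (∑ a ∈ A, ∑ b ∈ B, u (red q a) * v (red q b) * H (red q b - red q a)) / L ^ 2 := by
  have e1 : ∀ x, 𝔼 x', (lift q A L x * u x) * (lift q B L x' * v x') * H (x' - x) =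
      lift q A L x * ((∑ b ∈ B, u x * v (red q b) * H (red q b - x)) / L) := by
    intro x
    rw [← expect_lift_mul q B L fun x' => u x * v x' * H (x' - x), Finset.mul_expect]
    refine Finset.expect_congr rfl fun x' _ => ?_
    ring
  simp only [e1]
  rw [expect_lift_mul q A L fun x => (∑ b ∈ B, u x * v (red q b) * H (red q b - x)) / L,
    ← Finset.sum_div, div_div, sq]

end Lift

end Crest.Agent.N41.PairApp
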